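import Mathlib

/-!
# Global solutions of scalar periodic differential equations depending on a parameter (P205)
-/

noncomputable section

open Real Set Filter Topology
open scoped ContDiff NNReal

namespace Vale.Agent.P205.Klein

/-- A continuous function on `ℝ³` periodic in each variable is bounded. -/
theorem bdd_of_periodic {E : Type*} [NormedAddCommGroup E] {g : ℝ × ℝ × ℝ → E} (hg : Continuous g)
    {P : ℝ} (hP : 0 < P) (h1 : ∀ s u x, g (s + P, u, x) = g (s, u, x))
    (h2 : ∀ s u x, g (s, u + P, x) = g (s, u, x)) (h3 : ∀ s u x, g (s, u, x + P) = g (s, u, x)) :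
    ∃ M : ℝ≥0, ∀ p, ‖g p‖₊ ≤ M := by
  obtain ⟨M, hM⟩ := ((isCompact_Icc (a := (0 : ℝ)) (b := P)).prod
    (isCompact_Icc.prod isCompact_Icc)).exists_bound_of_continuousOn hg.continuousOn
  refine ⟨M.toNNReal, fun ⟨s, u, x⟩ => ?_⟩
  obtain ⟨s', hs', es⟩ := (show Function.Periodic (fun a => g (a, u, x)) P from
    fun a => h1 a u x).exists_mem_Ico₀ hP s
  obtain ⟨u', hu', eu⟩ := (show Function.Periodic (fun a => g (s', a, x)) P from
    fun a => h2 s' a x).exists_mem_Ico₀ hP u
  obtain ⟨x', hx', ex⟩ := (show Function.Periodic (fun a => g (s', u', a)) P from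
    fun a => h3 s' u' a).exists_mem_Ico₀ hP x

  rw [es, eu, ex, ← NNReal.coe_le_coe, coe_nnnorm]
  exact (hM (s', u', x') ⟨⟨hs'.1, hs'.2.le⟩, ⟨hu'.1, hu'.2.le⟩, hx'.1, hx'.2.le⟩).trans
    (le_coe_toNNReal M)

/-- A smooth function on `ℝ³` periodic in each variable is bounded and Lipschitz. -/
theorem periodic_bounds {g : ℝ × ℝ × ℝ → ℝ} (hg : ContDiff ℝ ∞ g)
    {P : ℝ} (hP : 0 < P) (h1 : ∀ s u x, g (s + P, u, x) = g (s, u, x))
    (h2 : ∀ s u x, g (s, u + P, x) = g (s, u, x)) (h3 : ∀ s u x, g (s, u, x + P) = g (s, u, x)) :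
    ∃ K L : ℝ≥0, LipschitzWith K g ∧ ∀ p, ‖g p‖₊ ≤ L := by
  obtain ⟨L, hL⟩ := bdd_of_periodic hg.continuous hP h1 h2 h3
  have key : ∀ v : ℝ × ℝ × ℝ, (∀ p, g (p + v) = g p) → ∀ p, fderiv ℝ g (p + v) = fderiv ℝ g p := by
    intro v hv p
    rw [← fderiv_comp_add_right, show (fun p => g (p + v)) = g from funext hv]
  obtain ⟨K, hK⟩ := bdd_of_periodic (g := fderiv ℝ g) (hg.continuous_fderiv (by simp)) hP
    (fun s u x => by
      simpa using key (P, 0, 0) (fun ⟨a, b, c⟩ => by simpa using h1 a b c) (s, u, x))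
    (fun s u x => by
      simpa using key (0, P, 0) (fun ⟨a, b, c⟩ => by simpa using h2 a b c) (s, u, x))
    (fun s u x => by
      simpa using key (0, 0, P) (fun ⟨a, b, c⟩ => by simpa using h3 a b c) (s, u, x))
  exact ⟨K, L, lipschitzWith_of_nnnorm_fderiv_le (hg.differentiable (by simp)) hK, hL⟩

/-- Global smooth solution of `A' = f(u, A)`, `A 0 = 0`, for a smooth bounded Lipschitz field. -/
theorem global_solution {f : ℝ → ℝ → ℝ} (hf : ContDiff ℝ ∞ (Function.uncurry f)) {K L : ℝ≥0}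
    (hK : ∀ u, LipschitzWith K (f u)) (hL : ∀ u x, ‖f u x‖₊ ≤ L) :
    ∃ A : ℝ → ℝ, ContDiff ℝ ∞ A ∧ A 0 = 0 ∧ ∀ u, HasDerivAt A (f u (A u)) u := by
  have hsol : ∀ k : ℕ, ∃ α : ℝ → ℝ, α 0 = 0 ∧ ∀ t ∈ Icc (-((k : ℝ) + 1)) ((k : ℝ) + 1),
      HasDerivWithinAt α (f t (α t)) (Icc (-((k : ℝ) + 1)) ((k : ℝ) + 1)) t := by
    intro k
    have h0 : (0 : ℝ) ∈ Icc (-((k : ℝ) + 1)) ((k : ℝ) + 1) := by
      constructor <;> linarith [k.cast_nonneg (α := ℝ)]
    have pl : IsPicardLindelof f ⟨0, h0⟩ (0 : ℝ) (L * ((k : ℝ≥0) + 1)) 0 L K :=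
      { lipschitzOnWith := fun t _ => (hK t).lipschitzOnWith
        continuousOn := fun x _ =>
          (hf.continuous.comp (by fun_prop : Continuous fun t : ℝ => (t, x))).continuousOn
        norm_le := fun t _ x _ => hL t x
        mul_max_le := by push_cast; simp }
    exact pl.exists_eq_forall_mem_Icc_hasDerivWithinAt₀
  choose α hα0 hα using hsol
  have huniq : ∀ i j : ℕ, i ≤ j → EqOn (α i) (α j) (Icc (-((i : ℝ) + 1)) ((i : ℝ) + 1)) := by
    intro i j hij
    have h : (i : ℝ) ≤ j := by exact_mod_cast hij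
    have hsub : Icc (-((i : ℝ) + 1)) ((i : ℝ) + 1) ⊆ Icc (-((j : ℝ) + 1)) ((j : ℝ) + 1) :=
      Icc_subset_Icc (by linarith) (by linarith)
    refine ODE_solution_unique_of_mem_Icc (v := f) (s := fun _ => univ)
      (K := K) (fun t _ => (hK t).lipschitzOnWith) (t₀ := 0)
      ⟨by linarith [i.cast_nonneg (α := ℝ)], by linarith [i.cast_nonneg (α := ℝ)]⟩
      (fun t ht => (hα i t ht).continuousWithinAt) (fun t ht => ?_) (fun _ _ => mem_univ _)
      (fun t ht => ((hα j t (hsub ht)).mono hsub).continuousWithinAt) (fun t ht => ?_)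
      (fun _ _ => mem_univ _) ((hα0 i).trans (hα0 j).symm)
    · exact (hα i t (Ioo_subset_Icc_self ht)).hasDerivAt (Icc_mem_nhds ht.1 ht.2)
    · exact ((hα j t (hsub (Ioo_subset_Icc_self ht))).mono hsub).hasDerivAt (Icc_mem_nhds ht.1 ht.2)
  set A : ℝ → ℝ := fun t => α ⌈|t|⌉₊ t with hA
  have hev : ∀ (k : ℕ) (t : ℝ), |t| < k → A =ᶠ[𝓝 t] α k := by
    intro k t ht
    filter_upwards [(isOpen_lt continuous_abs continuous_const).mem_nhds ht] with u hu
    refine huniq _ _ (Nat.ceil_le.2 hu.le) ?_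
    have := abs_le.1 (Nat.le_ceil |u|)
    constructor <;> linarith
  have hd : ∀ t, HasDerivAt A (f t (A t)) t := by
    intro t
    obtain ⟨k, hk⟩ := exists_nat_gt |t|
    have h' := abs_lt.1 hk
    have hd : HasDerivAt (α k) (f t (α k t)) t :=
      (hα k t ⟨by linarith, by linarith⟩).hasDerivAt (Icc_mem_nhds (by linarith) (by linarith))
    rw [(hev k t hk).eq_of_nhds]
    exact hd.congr_of_eventuallyEq (hev k t hk)
  refine ⟨A, ?_, by simp [hA, hα0], hd⟩
  rw [contDiff_infty]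
  intro n
  induction n with
  | zero =>
    exact contDiff_zero.2 (continuous_iff_continuousAt.2 fun t => (hd t).continuousAt)
  | succ n ih =>
    rw [Nat.cast_add, Nat.cast_one, contDiff_succ_iff_deriv]
    refine ⟨fun y => (hd y).differentiableAt, by simp, ?_⟩
    rw [funext fun y => (hd y).deriv]
    exact (hf.of_le (mod_cast le_top)).comp (contDiff_id.prodMk ih)

/-- Solutions depend continuously on the parameter. -/
theorem continuous_in_parameter {g : ℝ × ℝ × ℝ → ℝ} {K : ℝ≥0} (hg : LipschitzWith K g)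
    {A : ℝ → ℝ → ℝ} (h0 : ∀ s, A s 0 = 0) (hd : ∀ s u, HasDerivAt (A s) (g (s, u, A s u)) u)
    {T : ℝ} (hT : 0 ≤ T) : Continuous fun s => A s T := by
  have hv : ∀ s u, LipschitzWith K fun x => g (s, u, x) := by
    intro s u
    refine LipschitzWith.of_dist_le_mul fun x y => ?_
    refine (hg.dist_le_mul _ _).trans_eq ?_
    simp [Prod.dist_eq]
  refine continuous_iff_continuousAt.2 fun s₀ => ?_
  have hb : ∀ s, dist (A s T) (A s₀ T) ≤ gronwallBound 0 K (0 + K * dist s s₀) T := by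
    intro s
    have := dist_le_of_approx_trajectories_ODE (v := fun u x => g (s, u, x)) (K := K)
      (f := A s) (g := A s₀) (f' := fun u => g (s, u, A s u))
      (g' := fun u => g (s₀, u, A s₀ u)) (a := 0) (b := T) (εf := 0) (εg := K * dist s s₀)
      (δ := 0) (fun u => hv s u)
      (fun u _ => (hd s u).continuousAt.continuousWithinAt) (fun u _ => (hd s u).hasDerivWithinAt)
      (fun u _ => by simp)
      (fun u _ => (hd s₀ u).continuousAt.continuousWithinAt)
      (fun u _ => (hd s₀ u).hasDerivWithinAt)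
      (fun u _ => by
        refine (hg.dist_le_mul _ _).trans_eq ?_
        simp [Prod.dist_eq, dist_comm])
      (by simp [h0]) T ⟨hT, le_rfl⟩
    simpa using this
  have hc : Tendsto (fun s => gronwallBound 0 K (0 + K * dist s s₀) T) (𝓝 s₀) (𝓝 0) := by
    have h1 : Continuous fun s => gronwallBound 0 K (0 + K * dist s s₀) T :=
      (gronwallBound_continuous_ε 0 K T).comp
        (continuous_const.add (continuous_const.mul (continuous_id.dist continuous_const)))
    simpa [gronwallBound_ε0_δ0] using h1.tendsto s₀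
  rw [ContinuousAt, tendsto_iff_dist_tendsto_zero]
  exact squeeze_zero (fun _ => dist_nonneg) hb hc

end Vale.Agent.P205.Klein
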