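import Vale.Agent.P205.Torus
import Vale.Agent.P205.Klein.Ode

/-!
# Circle-invariant metrics on the Klein bottle immerse isometrically in ℝ⁴ (P205)

The Klein bottle is the plane modulo `(u, v) ↦ (u + 2π, v)` and `(u, v) ↦ (-u, v + π)`. With `m`
even and `n = m - 1` odd the map is `(r e^{i(mv + a)}, t e^{i(nv + b)})`, `r = S cos A / m`,
`t = S sin A / n`, where the odd winding angle `A` solves a differential equation.
-/

noncomputable section

open Real Set MeasureTheory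
open scoped ContDiff RealInnerProductSpace NNReal

namespace Vale.Agent.P205.Klein

/-- Coefficient of `S² A'²`. -/
def Pc (m n x : ℝ) : ℝ := sin x ^ 2 / m ^ 2 + cos x ^ 2 / n ^ 2
/-- Coefficient of `2 S S' A'`. -/
def Nc (m n x : ℝ) : ℝ := sin x * cos x * (1 / n ^ 2 - 1 / m ^ 2)
/-- Coefficient of `S'²`. -/
def Mc (m n x : ℝ) : ℝ := cos x ^ 2 / m ^ 2 + sin x ^ 2 / n ^ 2

theorem coef_det {m n : ℝ} (x : ℝ) :
    Mc m n x * Pc m n x - Nc m n x ^ 2 = 1 / (m * n) ^ 2 := by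
  simp only [Pc, Nc, Mc, one_div, div_eq_mul_inv, mul_inv, mul_pow, inv_pow]
  linear_combination ((m ^ 2)⁻¹ * (n ^ 2)⁻¹ * (sin x ^ 2 + cos x ^ 2 + 1)) * sin_sq_add_cos_sq x

theorem coef_bounds {m n : ℝ} (hn : 0 < n) (hnm : n ≤ m) (hm : m ≤ 2 * n) (x : ℝ) :
    1 / m ^ 2 ≤ Pc m n x ∧ Pc m n x ≤ 1 / n ^ 2 ∧ |Nc m n x| ≤ 2 / m ^ 2 := by
  have hm0 : 0 < m := lt_of_lt_of_le hn hnm
  have hi : 1 / m ^ 2 ≤ 1 / n ^ 2 := by gcongr
  have hs := sin_sq_add_cos_sq x
  have hP : Pc m n x = sin x ^ 2 * (1 / m ^ 2) + cos x ^ 2 * (1 / n ^ 2) := by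
    simp only [Pc]; ring
  refine ⟨?_, ?_, ?_⟩
  · rw [hP]
    calc 1 / m ^ 2 = sin x ^ 2 * (1 / m ^ 2) + cos x ^ 2 * (1 / m ^ 2) := by
          rw [← add_mul, hs, one_mul]
      _ ≤ _ := by gcongr
  · rw [hP]
    calc sin x ^ 2 * (1 / m ^ 2) + cos x ^ 2 * (1 / n ^ 2)
        ≤ sin x ^ 2 * (1 / n ^ 2) + cos x ^ 2 * (1 / n ^ 2) := by gcongr
      _ = _ := by rw [← add_mul, hs, one_mul]
  · have h4 : 1 / n ^ 2 ≤ 4 / m ^ 2 := by
      rw [div_le_div_iff₀ (by positivity) (by positivity)]; nlinarith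
    have habs : |sin x * cos x| ≤ 1 / 2 := by
      rw [abs_le]; constructor <;> nlinarith [sq_nonneg (sin x + cos x), sq_nonneg (sin x - cos x)]
    have hd : |1 / n ^ 2 - 1 / m ^ 2| ≤ 4 / m ^ 2 := by
      rw [abs_of_nonneg (by linarith)]; linarith [show 0 ≤ 1 / m ^ 2 by positivity]
    calc |Nc m n x| = |sin x * cos x| * |1 / n ^ 2 - 1 / m ^ 2| := by simp only [Nc, abs_mul]
      _ ≤ 1 / 2 * (4 / m ^ 2) := mul_le_mul habs hd (abs_nonneg _) (by norm_num)
      _ = 2 / m ^ 2 := by ring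

/-- The quantity under the root. -/
def disc (R₀ S₁ : ℝ → ℝ) (m n lam u x : ℝ) : ℝ :=
  Pc m n x * R₀ u * (1 - lam ^ 2 * sin (2 * x) ^ 4) - (S₁ u / (m * n)) ^ 2

/-- The winding speed. -/
def fld (R₀ S S₁ : ℝ → ℝ) (m n lam u x : ℝ) : ℝ :=
  (-(S₁ u * Nc m n x) + √(disc R₀ S₁ m n lam u x)) / (S u * Pc m n x)

theorem fld_eq {R₀ S S₁ : ℝ → ℝ} {m n lam u x : ℝ}
    (hS : 0 < S u) (hP : 0 < Pc m n x) (hd : 0 ≤ disc R₀ S₁ m n lam u x) :
    S u ^ 2 * Pc m n x * fld R₀ S S₁ m n lam u x ^ 2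
      + 2 * S u * S₁ u * Nc m n x * fld R₀ S S₁ m n lam u x + S₁ u ^ 2 * Mc m n x
      = R₀ u * (1 - lam ^ 2 * sin (2 * x) ^ 4) := by
  set f := fld R₀ S S₁ m n lam u x with hf
  have h1 : S u * Pc m n x * f + S₁ u * Nc m n x = √(disc R₀ S₁ m n lam u x) := by
    simp only [hf, fld]; field_simp; ring
  have h2 := sq_sqrt hd
  rw [← h1] at h2
  simp only [disc] at h2
  have h3 := coef_det (m := m) (n := n) x
  apply mul_left_cancel₀ hP.ne'
  linear_combination h2 + S₁ u ^ 2 * h3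

/-- A primitive of `1 + sin(2x)^4 / 8`. -/
def clock (x : ℝ) : ℝ := x + (3 * x / 8 - sin (4 * x) / 8 + sin (8 * x) / 64) / 8

theorem clock_deriv (x : ℝ) : HasDerivAt clock (1 + sin (2 * x) ^ 4 / 8) x := by
  have h4 : HasDerivAt (fun y => sin (4 * y)) (cos (4 * x) * 4) x := by
    simpa using ((hasDerivAt_id' x).const_mul (4 : ℝ)).sin
  have h8 : HasDerivAt (fun y => sin (8 * y)) (cos (8 * x) * 8) x := by
    simpa using ((hasDerivAt_id' x).const_mul (8 : ℝ)).sin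
  have h := (hasDerivAt_id' x).add
    (((((hasDerivAt_id' x).const_mul (3 : ℝ)).div_const 8).sub (h4.div_const 8)).add
      (h8.div_const 64) |>.div_const 8)
  refine h.congr_deriv ?_
  rw [show 8 * x = 2 * (4 * x) by ring, cos_two_mul (4 * x), show 4 * x = 2 * (2 * x) by ring,
    cos_two_mul' (2 * x)]
  linear_combination ((1 / 32) * (cos (2 * x) ^ 2 + 1 - 3 * sin (2 * x) ^ 2) - 1 / 16)
    * sin_sq_add_cos_sq (2 * x)

theorem clock_lb (x : ℝ) : 67 / 64 * x - 1 / 32 ≤ clock x := by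
  simp only [clock]
  linarith [sin_le_one (4 * x), neg_one_le_sin (8 * x)]

theorem clock_zero : clock 0 = 0 := by simp [clock]

theorem speed_err {m P N S₁ S C : ℝ} (hS : 0 < S) (hm : 0 < m) (hP1 : 1 / m ^ 2 ≤ P)
    (hN : |N| ≤ 2 / m ^ 2) (hC : |S₁| / S ≤ C) : |S₁ * N / (S * P)| ≤ 2 * C := by
  have hP : 0 < P := lt_of_lt_of_le (by positivity) hP1
  have hC0 : 0 ≤ C := le_trans (div_nonneg (abs_nonneg _) hS.le) hC
  have e : |S₁ * N / (S * P)| = |S₁| / S * (|N| / P) := by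
    rw [abs_div, abs_mul, abs_mul, abs_of_pos hS, abs_of_pos hP]; ring
  have h2 : |N| / P ≤ 2 := by
    rw [div_le_iff₀ hP]
    refine hN.trans ?_
    rw [div_eq_mul_one_div]
    exact mul_le_mul_of_nonneg_left hP1 zero_le_two
  rw [e]
  calc _ ≤ C * 2 := mul_le_mul hC h2 (div_nonneg (abs_nonneg _) hP.le) hC0
    _ = _ := by ring

theorem speed_low {m n P N R S₁ S C : ℝ} (hm : 0 < m) (hn : 0 < n) (hm2 : m ≤ 2 * n) (hS : 0 < S)
    (hR : 0 ≤ R) (hP1 : 1 / m ^ 2 ≤ P) (hP2 : P ≤ 1 / n ^ 2) (hN : |N| ≤ 2 / m ^ 2)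
    (hC : |S₁| / S ≤ C) (hd : 0 ≤ P * R - (S₁ / (m * n)) ^ 2) :
    n * (√R / S) - 4 * C ≤ (-(S₁ * N) + √(P * R - (S₁ / (m * n)) ^ 2)) / (S * P) := by
  have hP : 0 < P := lt_of_lt_of_le (by positivity) hP1
  have hC0 : 0 ≤ C := le_trans (div_nonneg (abs_nonneg _) hS.le) hC
  set b := S₁ / (m * n) with hb
  set r := √(P * R - b ^ 2) with hr
  have hr2 : r ^ 2 = P * R - b ^ 2 := sq_sqrt hd
  have hr0 : 0 ≤ r := sqrt_nonneg _
  have h1 : √(P * R) ≤ r + |b| := by
    rw [sqrt_le_left (by positivity)]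
    nlinarith [abs_nonneg b, sq_abs b]
  have hle : √P * n ≤ 1 := by
    have := sqrt_le_sqrt hP2
    rw [sqrt_div zero_le_one, sqrt_one, sqrt_sq hn.le, le_div_iff₀ hn] at this
    exact this
  have h2 : n * (√R / S) * (S * P) ≤ √(P * R) := by
    rw [sqrt_mul hP.le]
    calc n * (√R / S) * (S * P) = (√P * n) * (√P * √R) := by
          field_simp
          rw [sq_sqrt hP.le]
      _ ≤ _ := mul_le_of_le_one_left (by positivity) hle
  have h3 : |b| ≤ 2 * C * (S * P) := by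
    have hbabs : |b| = |S₁| / (m * n) := by rw [hb, abs_div, abs_of_pos (mul_pos hm hn)]
    rw [hbabs, div_le_iff₀ (mul_pos hm hn)]
    rw [div_le_iff₀ hS] at hC
    have h := hP1
    rw [div_le_iff₀ (by positivity)] at h
    have h4 : 1 ≤ 2 * (P * (m * n)) := by
      nlinarith [mul_le_mul_of_nonneg_left hm2 (mul_nonneg hm.le hP.le)]
    nlinarith [mul_le_mul_of_nonneg_left h4 (mul_nonneg hC0 hS.le)]
  have h5 := (abs_le.1 (speed_err hS hm hP1 hN hC)).2
  rw [div_le_iff₀ (mul_pos hS hP)] at h5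
  rw [le_div_iff₀ (mul_pos hS hP)]
  nlinarith

theorem speed_up {m n P N R S₁ S C z : ℝ} (hm : 0 < m) (hS : 0 < S)
    (hR : 0 ≤ R) (hP1 : 1 / m ^ 2 ≤ P) (hN : |N| ≤ 2 / m ^ 2) (hC : |S₁| / S ≤ C)
    (hz0 : 0 ≤ z) (hz1 : z ≤ 1) :
    (1 + z / 8) * ((-(S₁ * N) + √(P * R * (1 - z / 4) - (S₁ / (m * n)) ^ 2)) / (S * P))
      ≤ m * (√R / S) + 3 * C := by
  have hP : 0 < P := lt_of_lt_of_le (by positivity) hP1
  have hC0 : 0 ≤ C := le_trans (div_nonneg (abs_nonneg _) hS.le) hC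
  have hq : 0 ≤ 1 - z / 4 := by linarith
  have h1 : √(P * R * (1 - z / 4) - (S₁ / (m * n)) ^ 2) ≤ √P * √R * √(1 - z / 4) := by
    rw [← sqrt_mul hP.le, ← sqrt_mul (mul_nonneg hP.le hR)]
    exact sqrt_le_sqrt (by linarith [sq_nonneg (S₁ / (m * n))])
  have h2 : 1 ≤ m * √P := by
    have := sqrt_le_sqrt hP1
    rw [sqrt_div zero_le_one, sqrt_one, sqrt_sq hm.le, div_le_iff₀ hm] at this
    linarith
  have h3 : √P * √R * √(1 - z / 4) ≤ m * (√R / S) * √(1 - z / 4) * (S * P) := by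
    calc _ ≤ (m * √P) * (√P * √R * √(1 - z / 4)) := le_mul_of_one_le_left (by positivity) h2
      _ = _ := by
          field_simp
          rw [sq_sqrt hP.le]
          ring
  have h4 : (1 + z / 8) * √(1 - z / 4) ≤ 1 := by
    have e : (1 + z / 8) = √((1 + z / 8) ^ 2) := (sqrt_sq (by positivity)).symm
    rw [e, ← sqrt_mul (sq_nonneg _)]
    exact sqrt_le_one.2 (by nlinarith [mul_nonneg hz0 (mul_nonneg hz0 hz0)])
  have h5 := (abs_le.1 (speed_err hS hm hP1 hN hC)).1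
  rw [le_div_iff₀ (mul_pos hS hP)] at h5
  have h6 : (-(S₁ * N) + √(P * R * (1 - z / 4) - (S₁ / (m * n)) ^ 2)) / (S * P)
      ≤ 2 * C + m * (√R / S) * √(1 - z / 4) := by
    rw [div_le_iff₀ (mul_pos hS hP)]; nlinarith
  calc _ ≤ (1 + z / 8) * (2 * C + m * (√R / S) * √(1 - z / 4)) :=
        mul_le_mul_of_nonneg_left h6 (by positivity)
    _ ≤ _ := by
        have h7 := mul_le_mul_of_nonneg_left h4
          (mul_nonneg hm.le (div_nonneg (sqrt_nonneg R) hS.le))
        nlinarith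

/-- A number between `b` and `a` on the lattice `πℤ` when they are at least `π` apart. -/
theorem exists_int_mul_pi {a b : ℝ} (h : b + π ≤ a) : ∃ j : ℤ, b ≤ j * π ∧ j * π ≤ a := by
  refine ⟨⌊a / π⌋, ?_, ?_⟩
  · have := Int.lt_floor_add_one (a / π)
    rw [div_lt_iff₀ pi_pos] at this
    nlinarith
  · have := Int.floor_le (a / π)
    rw [le_div_iff₀ pi_pos] at this
    exact this

/-- The odd winding angle. -/
theorem exists_angle {R₀ S : ℝ → ℝ} (hRd : ContDiff ℝ ∞ R₀) (hSd : ContDiff ℝ ∞ S)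
    (pR : Function.Periodic R₀ (2 * π)) (pS : Function.Periodic S (2 * π))
    (eR : ∀ u, R₀ (-u) = R₀ u) (eS : ∀ u, S (-u) = S u)
    (hRpos : ∀ u, 0 < R₀ u) (hSpos : ∀ u, 0 < S u) :
    ∃ (m n : ℕ) (lam : ℝ) (A : ℝ → ℝ) (j : ℤ),
      0 < m ∧ 0 < n ∧ Even m ∧ Odd n ∧ ContDiff ℝ ∞ A ∧ (∀ u, A (-u) = -A u) ∧
      (∀ u, A (u + 2 * π) = A u + j * (2 * π)) ∧
      ∀ u, S u ^ 2 * Pc m n (A u) * deriv A u ^ 2
        + 2 * S u * deriv S u * Nc m n (A u) * deriv A u + deriv S u ^ 2 * Mc m n (A u)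
        = R₀ u * (1 - lam ^ 2 * sin (2 * A u) ^ 4) := by
  set S₁ := deriv S with hS₁
  have hS₁d : ContDiff ℝ ∞ S₁ := (contDiff_infty_iff_deriv.1 hSd).2
  have pS₁ : Function.Periodic S₁ (2 * π) := periodic_deriv pS
  have oS₁ : ∀ u, S₁ (-u) = -S₁ u := by
    intro u
    have := deriv_comp_neg (f := S) (x := u)
    rw [funext eS] at this
    simp only [hS₁]; linarith
  set w : ℝ → ℝ := fun u => √(R₀ u) / S u with hw
  have hwc : Continuous w :=
    (hRd.continuous.sqrt).div hSd.continuous fun u => (hSpos u).ne'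
  have hwpos : ∀ u, 0 < w u := fun u => div_pos (sqrt_pos.2 (hRpos u)) (hSpos u)
  obtain ⟨C₀, hC⟩ := periodic_ub (f := fun u => |S₁ u| / S u)
    ((hS₁d.continuous.abs).div hSd.continuous fun u => (hSpos u).ne')
    (fun u => by simp [pS₁ u, pS u])
  have hC0 : 0 ≤ C₀ := le_trans (div_nonneg (abs_nonneg _) (hSpos 0).le) (hC 0)
  obtain ⟨B, hB⟩ := periodic_ub (f := fun u => S₁ u ^ 2 / R₀ u)
    ((hS₁d.continuous.pow 2).div hRd.continuous fun u => (hRpos u).ne')
    (fun u => by simp [pS₁ u, pR u])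
  set I : ℝ := ∫ t in (0 : ℝ)..π, w t with hI
  have hIpos : 0 < I :=
    intervalIntegral.intervalIntegral_pos_of_pos (hwc.intervalIntegrable _ _) hwpos pi_pos
  set D : ℝ := 67 / 3 * (4 * C₀ * π + 64 / 67 * (I + 3 * C₀ * π + 1 / 32) + π) / I with hD
  obtain ⟨i, hi⟩ : ∃ i : ℕ, max D (2 * B + 1) ≤ i := exists_nat_ge _
  set n : ℕ := 2 * i + 1 with hn
  set m : ℕ := 2 * i + 2 with hm
  have hn0 : (0 : ℝ) < n := by positivity
  have hm0 : (0 : ℝ) < m := by positivity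
  have hnm : (n : ℝ) ≤ m := by simp [hn, hm]
  have hm2 : (m : ℝ) ≤ 2 * n := by simp [hn, hm]; linarith [i.cast_nonneg (α := ℝ)]
  have hmn1 : (m : ℝ) = n + 1 := by simp [hn, hm]; ring
  have hnD : D ≤ n := by
    have := le_trans (le_max_left _ _) hi
    simp [hn]; linarith [i.cast_nonneg (α := ℝ)]
  have hnB : 2 * B + 1 ≤ (n : ℝ) ^ 2 := by
    have := le_trans (le_max_right _ _) hi
    have h1 : (1 : ℝ) ≤ n := by simp [hn]
    have h2 : (i : ℝ) ≤ n := by simp [hn]; linarith [i.cast_nonneg (α := ℝ)]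
    nlinarith
  have cb := coef_bounds hn0 hnm hm2
  have hPpos : ∀ x, 0 < Pc m n x := fun x => lt_of_lt_of_le (by positivity) (cb x).1
  let lm : ℝ → ℝ := fun s => sin s / 2
  have hlam : ∀ s, lm s ^ 2 ≤ 1 / 4 := by
    intro s; simp only [lm]; nlinarith [sin_sq_le_one s]
  have hfac : ∀ s x, 3 / 4 ≤ 1 - lm s ^ 2 * sin (2 * x) ^ 4 := by
    intro s x
    have h1 : sin (2 * x) ^ 4 ≤ 1 := by
      nlinarith [sin_sq_le_one (2 * x), sq_nonneg (sin (2 * x))]
    have h0 : 0 ≤ sin (2 * x) ^ 4 := by positivity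
    nlinarith [hlam s, sq_nonneg (lm s)]
  have hdisc : ∀ s u x, 0 < disc R₀ S₁ m n (lm s) u x := by
    intro s u x
    simp only [disc, sub_pos]
    have h1 : (S₁ u / ((m : ℝ) * n)) ^ 2 = S₁ u ^ 2 / (n : ℝ) ^ 2 * (1 / (m : ℝ) ^ 2) := by
      field_simp
    have h2 : S₁ u ^ 2 / (n : ℝ) ^ 2 < R₀ u * (3 / 4) := by
      have := hB u
      rw [div_le_iff₀ (hRpos u)] at this
      rw [div_lt_iff₀ (by positivity)]
      nlinarith [mul_le_mul_of_nonneg_left hnB (hRpos u).le, hRpos u]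
    rw [h1]
    calc S₁ u ^ 2 / (n : ℝ) ^ 2 * (1 / (m : ℝ) ^ 2) < R₀ u * (3 / 4) * (1 / (m : ℝ) ^ 2) := by
          gcongr
      _ ≤ R₀ u * (1 - lm s ^ 2 * sin (2 * x) ^ 4) * Pc m n x := by
          refine mul_le_mul (mul_le_mul_of_nonneg_left (hfac s x) (hRpos u).le) (cb x).1
            (by positivity) (mul_nonneg (hRpos u).le (le_trans (by norm_num) (hfac s x)))
      _ = _ := by ring
  set g : ℝ × ℝ × ℝ → ℝ := fun p => fld R₀ S S₁ m n (lm p.1) p.2.1 p.2.2 with hg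
  have hu : ContDiff ℝ ∞ fun p : ℝ × ℝ × ℝ => p.2.1 := contDiff_fst.comp contDiff_snd
  have hx : ContDiff ℝ ∞ fun p : ℝ × ℝ × ℝ => p.2.2 := contDiff_snd.comp contDiff_snd
  have hPd : ContDiff ℝ ∞ fun p : ℝ × ℝ × ℝ => Pc m n p.2.2 := by
    simp only [Pc]; exact ((hx.sin.pow 2).div_const _).add ((hx.cos.pow 2).div_const _)
  have hNd : ContDiff ℝ ∞ fun p : ℝ × ℝ × ℝ => Nc m n p.2.2 := by
    simp only [Nc]; exact (hx.sin.mul hx.cos).mul contDiff_const
  have hgd : ContDiff ℝ ∞ g := by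
    simp only [hg, fld]
    refine (((hS₁d.comp hu).mul hNd).neg.add (ContDiff.sqrt ?_ fun p => (hdisc _ _ _).ne')).div
      ((hSd.comp hu).mul hPd) fun p => (mul_pos (hSpos _) (hPpos _)).ne'
    simp only [disc, lm]
    exact (((hPd.mul (hRd.comp hu)).mul (contDiff_const.sub
      (((contDiff_fst.sin).div_const 2).pow 2 |>.mul ((contDiff_const.mul hx).sin.pow 4))))).sub
      (((hS₁d.comp hu).div_const _).pow 2)
  have g3π : ∀ s u x, g (s, u, x + π) = g (s, u, x) := by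
    intro s u x
    simp only [hg, fld, disc, Pc, Nc, sin_add_pi, cos_add_pi,
      show 2 * (x + π) = 2 * x + 2 * π by ring, sin_add_two_pi, neg_sq, neg_mul_neg]
  have g2 : ∀ s u x, g (s, u + 2 * π, x) = g (s, u, x) := fun s u x => by
    simp only [hg, fld, disc, pR u, pS u, pS₁ u]
  obtain ⟨K, L, hK, hL⟩ := periodic_bounds hgd Real.two_pi_pos
    (fun s u x => by simp only [hg, lm, sin_add_two_pi])
    g2 (fun s u x => by rw [show x + 2 * π = x + π + π by ring, g3π, g3π])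
  have hKx : ∀ s u, LipschitzWith K fun x => g (s, u, x) := fun s u =>
    LipschitzWith.of_dist_le_mul fun x y => (hK.dist_le_mul _ _).trans_eq (by simp [Prod.dist_eq])
  choose A hAd hA0 hA' using fun s => global_solution (f := fun u x => g (s, u, x))
    (hgd.comp (contDiff_const.prodMk (contDiff_fst.prodMk contDiff_snd))) (hKx s)
    (fun u x => hL _)
  have hPhi : Continuous fun s => A s π := continuous_in_parameter hK hA0 hA' pi_pos.le
  -- estimates at the two ends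
  have hW : ∀ u, HasDerivAt (fun u => ∫ t in (0 : ℝ)..u, w t) (w u) u := primitive_hasDeriv hwc
  have hlow : ∀ u x, n * w u - 4 * C₀ ≤ g (0, u, x) := by
    intro u x
    have hd := hdisc 0 u x
    have e : disc R₀ S₁ m n (lm 0) u x = Pc m n x * R₀ u - (S₁ u / ((m : ℝ) * n)) ^ 2 := by
      simp [disc, lm]
    rw [e] at hd
    simp only [hg, fld, e, hw]
    exact speed_low hm0 hn0 hm2 (hSpos u) (hRpos u).le (cb x).1 (cb x).2.1 (cb x).2.2 (hC u) hd.le
  have hup : ∀ u x, (1 + sin (2 * x) ^ 4 / 8) * g (π / 2, u, x) ≤ m * w u + 3 * C₀ := by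
    intro u x
    have e : disc R₀ S₁ m n (lm (π / 2)) u x
        = Pc m n x * R₀ u * (1 - sin (2 * x) ^ 4 / 4) - (S₁ u / ((m : ℝ) * n)) ^ 2 := by
      simp only [disc, lm, sin_pi_div_two]; ring
    simp only [hg, fld, e, hw]
    exact speed_up hm0 (hSpos u) (hRpos u).le (cb x).1 (cb x).2.2 (hC u) (by positivity)
      (by nlinarith [sin_sq_le_one (2 * x), sq_nonneg (sin (2 * x))])
  have hΦ0 : n * I - 4 * C₀ * π ≤ A 0 π := by
    have hmono : Monotone fun u => A 0 u - (n * (∫ t in (0 : ℝ)..u, w t) - 4 * C₀ * u) := by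
      refine monotone_of_hasDerivAt_nonneg (f' := fun u => g (0, u, A 0 u) - (n * w u - 4 * C₀))
        (fun u => ?_) fun u => sub_nonneg.2 (hlow _ _)
      exact (hA' 0 u).sub
        (((hW u).const_mul (n : ℝ)).sub ((hasDerivAt_id' u).const_mul (4 * C₀) |>.congr_deriv
          (mul_one _)))
    have := hmono pi_pos.le
    simp only [hA0, intervalIntegral.integral_same, mul_zero, sub_zero] at this
    linarith
  have hΦ1 : clock (A (π / 2) π) ≤ m * I + 3 * C₀ * π := by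
    have hmono : Antitone fun u =>
        clock (A (π / 2) u) - (m * (∫ t in (0 : ℝ)..u, w t) + 3 * C₀ * u) := by
      refine antitone_of_hasDerivAt_nonpos
        (f' := fun u => (1 + sin (2 * A (π / 2) u) ^ 4 / 8) * g (π / 2, u, A (π / 2) u)
          - (m * w u + 3 * C₀)) (fun u => ?_) fun u => sub_nonpos.2 (hup _ _)
      exact ((clock_deriv _).comp u (hA' _ u)).sub
        (((hW u).const_mul (m : ℝ)).add ((hasDerivAt_id' u).const_mul (3 * C₀) |>.congr_deriv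
          (mul_one _)))
    have := hmono pi_pos.le
    simp only [hA0, clock_zero, intervalIntegral.integral_same, mul_zero, add_zero, sub_zero] at this
    linarith
  have hgap : A (π / 2) π + π ≤ A 0 π := by
    have h1 := clock_lb (A (π / 2) π)
    have h2 : D * I ≤ n * I := mul_le_mul_of_nonneg_right hnD hIpos.le
    have h3 : D * I = 67 / 3 * (4 * C₀ * π + 64 / 67 * (I + 3 * C₀ * π + 1 / 32) + π) := by
      simp only [hD]; field_simp
    have h4 : (m : ℝ) * I = n * I + I := by rw [hmn1]; ring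
    nlinarith
  obtain ⟨j, hj1, hj2⟩ := exists_int_mul_pi hgap
  obtain ⟨s, -, hs⟩ := intermediate_value_Icc' (by positivity : (0 : ℝ) ≤ π / 2) hPhi.continuousOn
    ⟨hj1, hj2⟩
  -- symmetries
  have g_odd : ∀ u x, g (s, -u, -x) = g (s, u, x) := fun u x => by
    simp only [hg, fld, disc, Pc, Nc, sin_neg, cos_neg, eR, eS, oS₁,
      show 2 * -x = -(2 * x) by ring, neg_sq, neg_div]
    ring_nf
  have hodd : ∀ u, A s (-u) = -A s u := by
    have := ODE_solution_unique_univ (v := fun u x => g (s, u, x)) (s := fun _ => univ) (K := K)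
      (f := fun u => -A s (-u)) (g := A s) (t₀ := 0)
      (fun u => (hKx s u).lipschitzOnWith) (fun u => ⟨?_, mem_univ _⟩)
      (fun u => ⟨hA' s u, mem_univ _⟩) (by simp [hA0])
    · intro u
      have h := congrFun this u
      linarith
    · have h := (((hA' s (-u)).comp u (hasDerivAt_neg u)).neg)
      refine h.congr_deriv ?_
      have e := g_odd u (-A s (-u))
      rw [neg_neg] at e
      rw [mul_neg_one, neg_neg, e]
  have gper : ∀ u x, g (s, u + 2 * π, x + j * (2 * π)) = g (s, u, x) := fun u x => by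
    rw [g2]
    have h := (show Function.Periodic (fun x => g (s, u, x)) π from g3π s u).int_mul (2 * j) x
    push_cast at h
    rw [show x + j * (2 * π) = x + 2 * j * π by ring]
    exact h
  have hper : ∀ u, A s (u + 2 * π) = A s u + j * (2 * π) := by
    have := ODE_solution_unique_univ (v := fun u x => g (s, u, x)) (s := fun _ => univ) (K := K)
      (f := fun u => A s (u + 2 * π) - j * (2 * π)) (g := A s) (t₀ := -π)
      (fun u => (hKx s u).lipschitzOnWith) (fun u => ⟨?_, mem_univ _⟩)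
      (fun u => ⟨hA' s u, mem_univ _⟩) ?_
    · intro u
      have h := congrFun this u
      linarith
    · have h := ((hA' s (u + 2 * π)).comp_add_const u (2 * π)).sub_const ((j : ℝ) * (2 * π))
      refine h.congr_deriv ?_
      have e := gper u (A s (u + 2 * π) - j * (2 * π))
      rw [sub_add_cancel] at e
      exact e
    · simp only at hs
      rw [show -π + 2 * π = π by ring, hodd π, hs]; ring
  refine ⟨m, n, lm s, A s, j, by omega, by omega, ⟨i + 1, by omega⟩, ⟨i, rfl⟩, hAd s, hodd, hper, fun u => ?_⟩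
  rw [(hA' s u).deriv]
  exact fld_eq (hSpos u) (hPpos _) (hdisc s u _).le

theorem primitive_even {f : ℝ → ℝ} (ho : ∀ u, f (-u) = -f u) (u : ℝ) :
    (∫ t in (0 : ℝ)..(-u), f t) = ∫ t in (0 : ℝ)..u, f t := by
  have h := intervalIntegral.integral_comp_neg (a := 0) (b := u) f
  simp only [ho, intervalIntegral.integral_neg, neg_zero] at h
  rw [intervalIntegral.integral_symm (-u) 0, ← h, neg_neg]

/-- The primitive of an odd periodic function is periodic. -/
theorem primitive_periodic {f : ℝ → ℝ} (hf : Continuous f) (hp : Function.Periodic f (2 * π))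
    (ho : ∀ u, f (-u) = -f u) (u : ℝ) :
    (∫ t in (0 : ℝ)..(u + 2 * π), f t) = ∫ t in (0 : ℝ)..u, f t := by
  have h1 := primitive_shift hf hp (-π)
  rw [show -π + 2 * π = π by ring, primitive_even ho π] at h1
  rw [primitive_shift hf hp u]
  linarith

/-- Every circle-invariant metric on the Klein bottle is induced by a smooth map into ℝ⁴. -/
theorem exists_immersion {E F G : ℝ → ℝ} (hE : ContDiff ℝ ∞ E) (hF : ContDiff ℝ ∞ F)
    (hG : ContDiff ℝ ∞ G) (pE : Function.Periodic E (2 * π)) (pF : Function.Periodic F (2 * π))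
    (pG : Function.Periodic G (2 * π)) (eE : ∀ u, E (-u) = E u) (oF : ∀ u, F (-u) = -F u)
    (eG : ∀ u, G (-u) = G u) (hGpos : ∀ u, 0 < G u) (hdet : ∀ u, F u ^ 2 < E u * G u) :
    ∃ X : ℝ × ℝ → E4, ContDiff ℝ ∞ X ∧
      (∀ u v, X (u + 2 * π, v) = X (u, v)) ∧ (∀ u v, X (-u, v + π) = X (u, v)) ∧
      ∀ p a b : ℝ × ℝ, ⟪fderiv ℝ X p a, fderiv ℝ X p b⟫ =
        E p.1 * (a.1 * b.1) + F p.1 * (a.1 * b.2 + a.2 * b.1) + G p.1 * (a.2 * b.2) := by
  set S : ℝ → ℝ := fun u => √(G u) with hS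
  have hSd : ContDiff ℝ ∞ S := hG.sqrt fun u => (hGpos u).ne'
  have hSpos : ∀ u, 0 < S u := fun u => sqrt_pos.2 (hGpos u)
  have hS2 : ∀ u, S u ^ 2 = G u := fun u => sq_sqrt (hGpos u).le
  have pS : Function.Periodic S (2 * π) := fun u => by simp [hS, pG u]
  have eS : ∀ u, S (-u) = S u := fun u => by simp [hS, eG u]
  set R₀ : ℝ → ℝ := fun u => E u - F u ^ 2 / G u with hR₀
  have hRd : ContDiff ℝ ∞ R₀ := hE.sub ((hF.pow 2).div hG fun u => (hGpos u).ne')
  have hRpos : ∀ u, 0 < R₀ u := fun u => by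
    have := hdet u
    simp only [hR₀, sub_pos, div_lt_iff₀ (hGpos u)]; linarith
  have pR : Function.Periodic R₀ (2 * π) := fun u => by simp [hR₀, pE u, pF u, pG u]
  have eR : ∀ u, R₀ (-u) = R₀ u := fun u => by simp [hR₀, eE, oF, eG]
  obtain ⟨m, n, lam, A, j, hmpos, hnpos, hmeven, hnodd, hAd, hAodd, hAper, hode⟩ :=
    exists_angle hRd hSd pR pS eR eS hRpos hSpos
  obtain ⟨i₁, hi₁⟩ := hmeven
  obtain ⟨i₂, hi₂⟩ := hnodd
  have hcp : ∀ u, cos (A (u + 2 * π)) = cos (A u) := fun u => by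
    rw [hAper, cos_add_int_mul_two_pi]
  have hsp : ∀ u, sin (A (u + 2 * π)) = sin (A u) := fun u => by
    rw [hAper, sin_add_int_mul_two_pi]
  set μ : ℝ → ℝ := fun u => F u / G u with hμ
  have hμd : ContDiff ℝ ∞ μ := hF.div hG fun u => (hGpos u).ne'
  set om : ℝ → ℝ := fun u => 4 * lam * (cos (A u) * sin (A u)) * (√(R₀ u) / S u) with hom
  have homd : ContDiff ℝ ∞ om := (contDiff_const.mul (hAd.cos.mul hAd.sin)).mul
    ((hRd.sqrt fun u => (hRpos u).ne').div hSd fun u => (hSpos u).ne')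
  set fa : ℝ → ℝ := fun u => (m : ℝ) * (μ u + sin (A u) ^ 2 * om u) with hfa
  set fb : ℝ → ℝ := fun u => (n : ℝ) * (μ u - cos (A u) ^ 2 * om u) with hfb
  have hfad : ContDiff ℝ ∞ fa := contDiff_const.mul (hμd.add ((hAd.sin.pow 2).mul homd))
  have hfbd : ContDiff ℝ ∞ fb := contDiff_const.mul (hμd.sub ((hAd.cos.pow 2).mul homd))
  have ofa : ∀ u, fa (-u) = -fa u := fun u => by
    simp [hfa, hμ, hom, hAodd, oF, eG, eR, eS]; ring
  have ofb : ∀ u, fb (-u) = -fb u := fun u => by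
    simp [hfb, hμ, hom, hAodd, oF, eG, eR, eS]; ring
  have pfa : Function.Periodic fa (2 * π) := fun u => by
    simp [hfa, hμ, hom, hcp, hsp, pF u, pG u, pR u, pS u]
  have pfb : Function.Periodic fb (2 * π) := fun u => by
    simp [hfb, hμ, hom, hcp, hsp, pF u, pG u, pR u, pS u]
  set a : ℝ → ℝ := fun u => ∫ t in (0 : ℝ)..u, fa t with ha
  set b : ℝ → ℝ := fun u => ∫ t in (0 : ℝ)..u, fb t with hb
  have had : ContDiff ℝ ∞ a := smooth_primitive hfad
  have hbd : ContDiff ℝ ∞ b := smooth_primitive hfbd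
  have hm0 : m = 2 * i₁ := by omega
  have hn1 : (n : ℝ) ≠ 0 := by exact_mod_cast (by omega : n ≠ 0)
  set r : ℝ → ℝ := fun u => S u / m * cos (A u) with hr
  set t : ℝ → ℝ := fun u => S u / n * sin (A u) with ht
  have hrd : ContDiff ℝ ∞ r := (hSd.div_const _).mul hAd.cos
  have htd : ContDiff ℝ ∞ t := (hSd.div_const _).mul hAd.sin
  set X : ℝ × ℝ → E4 := fun p => WithLp.toLp 2
    ![r p.1 * cos (m * p.2 + a p.1), r p.1 * sin (m * p.2 + a p.1),
      t p.1 * cos (n * p.2 + b p.1), t p.1 * sin (n * p.2 + b p.1)] with hX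
  have hsm : ∀ f : ℝ → ℝ, ContDiff ℝ ∞ f → ContDiff ℝ ∞ fun p : ℝ × ℝ => f p.1 :=
    fun f hf => hf.comp contDiff_fst
  have harg : ∀ (k : ℝ) (f : ℝ → ℝ), ContDiff ℝ ∞ f →
      ContDiff ℝ ∞ fun p : ℝ × ℝ => k * p.2 + f p.1 :=
    fun k f hf => (contDiff_const.mul contDiff_snd).add (hsm f hf)
  have hXd : ContDiff ℝ ∞ X := by
    rw [contDiff_euclidean]
    intro i
    fin_cases i
    · simpa [hX] using (hsm r hrd).mul (harg m a had).cos
    · simpa [hX] using (hsm r hrd).mul (harg m a had).sin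
    · simpa [hX] using (hsm t htd).mul (harg n b hbd).cos
    · simpa [hX] using (hsm t htd).mul (harg n b hbd).sin
  refine ⟨X, hXd, ?_, ?_, ?_⟩
  · intro u v
    simp only [hX, hr, ht, ha, hb, pS u, hcp, hsp, primitive_periodic hfad.continuous pfa ofa,
      primitive_periodic hfbd.continuous pfb ofb]
  · intro u v
    have e1 : ∀ θ : ℝ, (m : ℝ) * (v + π) + θ = m * v + θ + (i₁ : ℤ) * (2 * π) := fun θ => by
      rw [hm0]; push_cast; ring
    have e2 : ∀ θ : ℝ, (n : ℝ) * (v + π) + θ = n * v + θ + π + (i₂ : ℤ) * (2 * π) := fun θ => by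
      rw [hi₂]; push_cast; ring
    simp only [hX, hr, ht, ha, hb, eS, hAodd, cos_neg, sin_neg, primitive_even ofa,
      primitive_even ofb, e1, e2, cos_add_int_mul_two_pi, sin_add_int_mul_two_pi, cos_add_pi,
      sin_add_pi, mul_neg, neg_mul, neg_neg]
  intro p v₁ v₂
  obtain ⟨u, v⟩ := p
  have hm1 : (m : ℝ) ≠ 0 := by exact_mod_cast hmpos.ne'
  set cA := cos (A u) with hcA
  set sA := sin (A u) with hsA
  set A₁ := deriv A u with hA₁
  set a₁ := fa u with ha₁
  set b₁ := fb u with hb₁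
  have hA' : HasDerivAt A A₁ u := (hAd.differentiable (by simp) u).hasDerivAt
  have ha' : HasDerivAt a a₁ u := primitive_hasDeriv hfad.continuous u
  have hb' : HasDerivAt b b₁ u := primitive_hasDeriv hfbd.continuous u
  have hr' : HasDerivAt r (deriv S u / m * cA + S u / m * (-sA * A₁)) u := by
    exact ((((hSd.differentiable (by simp) u).hasDerivAt).div_const _).mul hA'.cos)
  have ht' : HasDerivAt t (deriv S u / n * sA + S u / n * (cA * A₁)) u := by
    exact ((((hSd.differentiable (by simp) u).hasDerivAt).div_const _).mul hA'.sin)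
  set r₁ := deriv S u / m * cA + S u / m * (-sA * A₁) with hr₁
  set t₁ := deriv S u / n * sA + S u / n * (cA * A₁) with ht₁
  set θ := (m : ℝ) * v + a u with hθ
  set η := (n : ℝ) * v + b u with hη
  have hu : HasDerivAt (fun s => X (s, v)) (WithLp.toLp 2
      ![r₁ * cos θ + r u * (-sin θ * a₁), r₁ * sin θ + r u * (cos θ * a₁),
        t₁ * cos η + t u * (-sin η * b₁), t₁ * sin η + t u * (cos η * b₁)]) u := by
    refine (PiLp.continuousLinearEquiv 2 ℝ (fun _ : Fin 4 => ℝ)).symm.hasFDerivAt.comp_hasDerivAt _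
      (hasDerivAt_pi.2 fun i => ?_)
    fin_cases i
    · simpa using hr'.fun_mul (ha'.const_add _).cos
    · simpa using hr'.fun_mul (ha'.const_add _).sin
    · simpa using ht'.fun_mul (hb'.const_add _).cos
    · simpa using ht'.fun_mul (hb'.const_add _).sin
  have hkv : ∀ k c : ℝ, HasDerivAt (fun s => k * s + c) k v := fun k c => by
    simpa using ((hasDerivAt_id' v).const_mul k).add_const c
  have hv : HasDerivAt (fun s => X (u, s)) (WithLp.toLp 2
      ![r u * (-sin θ * m), r u * (cos θ * m), t u * (-sin η * n), t u * (cos η * n)]) v := by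
    refine (PiLp.continuousLinearEquiv 2 ℝ (fun _ : Fin 4 => ℝ)).symm.hasFDerivAt.comp_hasDerivAt _
      (hasDerivAt_pi.2 fun i => ?_)
    fin_cases i
    · simpa using (hkv m (a u)).cos.const_mul (r u)
    · simpa using (hkv m (a u)).sin.const_mul (r u)
    · simpa using (hkv n (b u)).cos.const_mul (t u)
    · simpa using (hkv n (b u)).sin.const_mul (t u)
  have hfd : ∀ c : ℝ × ℝ, fderiv ℝ X (u, v) c
      = c.1 • deriv (fun s => X (s, v)) u + c.2 • deriv (fun s => X (u, s)) v := by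
    intro c
    have hF' := (hXd.differentiable (by simp) (u, v)).hasFDerivAt
    have h1 := hF'.comp_hasDerivAt u ((hasDerivAt_id' u).prodMk (hasDerivAt_const u v))
    have h2 := hF'.comp_hasDerivAt v ((hasDerivAt_const v u).prodMk (hasDerivAt_id' v))
    rw [show (fun s => X (s, v)) = X ∘ fun s => (s, v) from rfl,
      show (fun s => X (u, s)) = X ∘ fun s => (u, s) from rfl, h1.deriv, h2.deriv,
      ← map_smul, ← map_smul, ← map_add]
    simp
  rw [hfd, hfd, hu.deriv, hv.deriv]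
  simp only [PiLp.inner_apply, Fin.sum_univ_four, PiLp.add_apply, PiLp.smul_apply, smul_eq_mul,
    RCLike.inner_apply, starRingEnd_apply, star_trivial, Matrix.cons_val_zero,
    Matrix.cons_val_one, Matrix.cons_val]
  have hcs : cA ^ 2 + sA ^ 2 = 1 := cos_sq_add_sin_sq _
  have hθ1 : cos θ ^ 2 + sin θ ^ 2 = 1 := cos_sq_add_sin_sq _
  have hη1 : cos η ^ 2 + sin η ^ 2 = 1 := cos_sq_add_sin_sq _
  have hrm : r u * m = S u * cA := by simp only [hr, ← hcA]; field_simp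
  have htn : t u * n = S u * sA := by simp only [ht, ← hsA]; field_simp
  have ea : a₁ = m * (μ u + sA ^ 2 * om u) := rfl
  have eb : b₁ = n * (μ u - cA ^ 2 * om u) := rfl
  have hvv : (r u * m) ^ 2 + (t u * n) ^ 2 = G u := by
    rw [hrm, htn]; linear_combination (S u ^ 2) * hcs + hS2 u
  have huv : m * r u ^ 2 * a₁ + n * t u ^ 2 * b₁ = F u := by
    have h : m * r u ^ 2 * a₁ + n * t u ^ 2 * b₁ = S u ^ 2 * μ u := by
      have e : m * r u ^ 2 * a₁ + n * t u ^ 2 * b₁ = (r u * m) ^ 2 * (μ u + sA ^ 2 * om u)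
          + (t u * n) ^ 2 * (μ u - cA ^ 2 * om u) := by rw [ea, eb]; ring
      rw [e, hrm, htn]
      linear_combination (S u ^ 2 * μ u) * hcs
    rw [h, hS2]
    simp only [hμ]
    field_simp [(hGpos u).ne']
  have huu : r₁ ^ 2 + t₁ ^ 2 + (r u * a₁) ^ 2 + (t u * b₁) ^ 2 = E u := by
    have h1 : r₁ ^ 2 + t₁ ^ 2 = S u ^ 2 * Pc m n (A u) * A₁ ^ 2
        + 2 * S u * deriv S u * Nc m n (A u) * A₁ + deriv S u ^ 2 * Mc m n (A u) := by
      simp only [hr₁, ht₁, Pc, Nc, Mc, ← hcA, ← hsA]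
      field_simp
      ring
    have h2 : (r u * a₁) ^ 2 + (t u * b₁) ^ 2
        = F u ^ 2 / G u + lam ^ 2 * sin (2 * A u) ^ 4 * R₀ u := by
      have hom2 : S u ^ 2 * om u ^ 2 = 16 * lam ^ 2 * cA ^ 2 * sA ^ 2 * R₀ u := by
        simp only [hom, ← hcA, ← hsA, mul_pow, div_pow, sq_sqrt (hRpos u).le]
        field_simp [(hSpos u).ne']
        ring
      have h3 : (r u * a₁) ^ 2 + (t u * b₁) ^ 2
          = S u ^ 2 * μ u ^ 2 + cA ^ 2 * sA ^ 2 * (S u ^ 2 * om u ^ 2) := by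
        have e : (r u * a₁) ^ 2 + (t u * b₁) ^ 2 = (r u * m) ^ 2 * (μ u + sA ^ 2 * om u) ^ 2
            + (t u * n) ^ 2 * (μ u - cA ^ 2 * om u) ^ 2 := by rw [ea, eb]; ring
        rw [e, hrm, htn]
        linear_combination (S u ^ 2 * (μ u ^ 2 + cA ^ 2 * sA ^ 2 * om u ^ 2)) * hcs
      rw [h3, hom2, hS2, sin_two_mul, ← hcA, ← hsA]
      simp only [hμ]
      field_simp [(hGpos u).ne']
      ring
    rw [add_assoc, h1, h2, hode u]
    simp only [hR₀]; ring
  rw [← huu, ← huv, ← hvv]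
  linear_combination
    (v₁.1 * v₂.1 * (r₁ ^ 2 + (r u * a₁) ^ 2) + (v₁.1 * v₂.2 + v₁.2 * v₂.1) * (m * r u ^ 2 * a₁)
      + v₁.2 * v₂.2 * (r u * m) ^ 2) * hθ1
    + (v₁.1 * v₂.1 * (t₁ ^ 2 + (t u * b₁) ^ 2) + (v₁.1 * v₂.2 + v₁.2 * v₂.1) * (n * t u ^ 2 * b₁)
      + v₁.2 * v₂.2 * (t u * n) ^ 2) * hη1

end Vale.Agent.P205.Klein
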